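import Vale.Agent.P255.FinalDefs
import Mathlib.Geometry.Manifold.VectorBundle.CovariantDerivative.Torsion
import Mathlib.Geometry.Manifold.VectorBundle.CovariantDerivative.Metric

/-! P219: the Levi-Civita connection and the sectional curvature. -/

namespace Vale.Agent.P219I

open scoped Manifold ContDiff
open Bundle VectorField
open Vale.Agent.P255 (RMetric innerAt)

noncomputable section

variable (V : Type) [NormedAddCommGroup V] [NormedSpace ℝ V]
  (M : Type) [TopologicalSpace M] [ChartedSpace V M]

variable {M} in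
/-- the tangent space at `x` -/
abbrev Tan (x : M) : Type := TangentSpace 𝓘(ℝ, V) x

/-- vector fields -/
abbrev Fld : Type := (x : M) → Tan V x

/-- curvature tensors `R x u v w = R(u, v) w` -/
abbrev Curv : Type := (x : M) → Tan V x → Tan V x → Tan V x → Tan V x

variable [IsManifold 𝓘(ℝ, V) ∞ M]

/-- connections on the tangent bundle -/
abbrev Conn : Type := CovariantDerivative 𝓘(ℝ, V) V (Tan V : M → Type)

/-- smooth vector fields -/
abbrev Vec : Type := Cₛ^∞⟮𝓘(ℝ, V); V, (Tan V : M → Type)⟯

variable {V M}

/-- the field `∇_X Y` -/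
def nab (D : Conn V M) (X Y : Fld V M) : Fld V M := fun x => D Y x (X x)

/-- `R` is the curvature tensor `R(X, Y) Z = ∇_X ∇_Y Z - ∇_Y ∇_X Z - ∇_[X,Y] Z` of `D`. -/
def IsCurv (D : Conn V M) (R : Curv V M) : Prop :=
  ∀ (X Y Z : Vec V M) (x : M), R x (X x) (Y x) (Z x) =
    nab D X (nab D Y Z) x - nab D Y (nab D X Z) x - nab D (mlieBracket 𝓘(ℝ, V) X Y) Z x

/-- The sectional curvature `g(R(v, w) w, v) / (|v|² |w|² - g(v, w)²)` of the plane spanned by
`v` and `w`. -/
def sec (g : RMetric V M) (R : Curv V M) (x : M) (v w : Tan V x) : ℝ :=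
  innerAt g x (R x v w w) v / (innerAt g x v v * innerAt g x w w - innerAt g x v w ^ 2)

variable [FiniteDimensional ℝ V]

/-- `D` is a Levi-Civita connection of `g`: smooth, torsion free and compatible with `g`. -/
structure IsLeviCivita (g : RMetric V M) (D : Conn V M) : Prop where
  smooth : D.ContMDiffCovariantDerivative ∞
  torsion : D.torsion = 0
  metric : letI : RiemannianBundle (Tan V : M → Type) := ⟨g.toRiemannianMetric⟩
    CovariantDerivative.IsMetricCompatible (V := (Tan V : M → Type)) D

/-- `R` is the curvature tensor of the Levi-Civita connection of `g`. -/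
def IsRiem (g : RMetric V M) (R : Curv V M) : Prop := ∃ D, IsLeviCivita g D ∧ IsCurv D R

/-- The sectional curvatures of all tangent planes lie in the set `S`. -/
def SecIn (g : RMetric V M) (S : Set ℝ) : Prop :=
  ∃ R, IsRiem g R ∧ ∀ (x : M) (v w : Tan V x), LinearIndependent ℝ ![v, w] → sec g R x v w ∈ S

end

end Vale.Agent.P219I
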