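import Vale.Agent.P211W98.LC
import Vale.Agent.P219I78.Defs
import Vale.Agent.P219W.Defs

/-! The curvature tensor of the Levi-Civita connection in a chart. -/

set_option maxSynthPendingDepth 3
set_option linter.unusedSectionVars false

namespace Vale.Agent.P219I

open scoped Manifold ContDiff Topology
open Bundle Filter VectorField Vale.Agent.P211 Vale.Agent.P211Z
open Vale.Agent.P211W (dg bg kz koszul)
open Vale.Agent.P255 (RMetric innerAt coefIn Gam Riem)

noncomputable section

variable {V : Type} [NormedAddCommGroup V] [NormedSpace ℝ V] [FiniteDimensional ℝ V]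
  {M : Type} [TopologicalSpace M] [ChartedSpace V M] [IsManifold 𝓘(ℝ, V) ∞ M] {a x : M} {u : V}

/-- constant fields on the model space -/
def cst (y : V) : Fld V V := fun _ => y

/-- the field with constant components `y` in the chart at `a` -/
def cf (a : M) (y : V) : Fld V M := pull (chartAt V a) (cst y)

/-- the chart as a partial diffeomorphism -/
def pdf (V : Type) [NormedAddCommGroup V] [NormedSpace ℝ V] [ChartedSpace V M]
    [IsManifold 𝓘(ℝ, V) ∞ M] (a : M) : PartialDiffeomorph 𝓘(ℝ, V) 𝓘(ℝ, V) M V ∞ :=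
  ⟨(chartAt V a).toPartialEquiv, (chartAt V a).open_source, (chartAt V a).open_target,
    contMDiffOn_chart, contMDiffOn_chart_symm⟩

theorem ld (hx : x ∈ (chartAt V a).source) :
    IsLocalDiffeomorphAt 𝓘(ℝ, V) 𝓘(ℝ, V) ∞ (chartAt V a) x := ⟨pdf V a, hx, Set.eqOn_refl _ _⟩

theorem ld_symm (hu : u ∈ (chartAt V a).target) :
    IsLocalDiffeomorphAt 𝓘(ℝ, V) 𝓘(ℝ, V) ∞ (chartAt V a).symm u :=
  ⟨(pdf V a).symm, hu, Set.eqOn_refl _ _⟩

theorem sm_cst (y u : V) : Sm (cst y) u :=
  (contMDiffAt_vectorSpace_iff_contDiffAt (V := cst y)).mpr contDiffAt_const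

theorem sm_cf (hx : x ∈ (chartAt V a).source) (y : V) : Sm (cf a y) x :=
  Sm.pull (ld hx) (sm_cst y _)

theorem dm_cf (hx : x ∈ (chartAt V a).source) (y : V) : dm V (chartAt V a) x (cf a y x) = y :=
  dm_pull (ld hx) _

theorem cf_surj (hx : x ∈ (chartAt V a).source) (v : Tan V x) : ∃ y : V, cf a y x = v :=
  ⟨dm V (chartAt V a) x v, (inv_of_ld (ld hx)).inverse_apply_eq.mpr rfl⟩

/-- `cf` is linear in the components -/
def cfL (V : Type) [NormedAddCommGroup V] [NormedSpace ℝ V] [ChartedSpace V M] (a x : M) :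
    V →L[ℝ] Tan V x := (dm V (chartAt V a) x).inverse

theorem cf_L (y : V) : cf a y x = cfL V a x y := rfl

theorem brk_cf (hx : x ∈ (chartAt V a).source) (y z : V) :
    mlieBracket 𝓘(ℝ, V) (cf a y) (cf a z) x = 0 := by
  unfold cf
  rw [pull_bracket (ld hx) (sm_cst y _).md (sm_cst z _).md]
  have h : mlieBracket 𝓘(ℝ, V) (cst y) (cst z) (chartAt V a x) = 0 := by
    rw [← mlieBracketWithin_univ, mlieBracketWithin_eq_lieBracketWithin]
    change lieBracketWithin ℝ (fun _ : V => y) (fun _ => z) Set.univ (chartAt V a x) = (0 : V)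
    simp [lieBracketWithin]
  change (dm V (chartAt V a) x).inverse (mlieBracket 𝓘(ℝ, V) (cst y) (cst z) (chartAt V a x)) = 0
  rw [h, map_zero]

theorem cf_eq (hu : u ∈ (chartAt V a).target) (y : V) :
    cf a y ((chartAt V a).symm u) = dm V (chartAt V a).symm u y := by
  have h1 := (mdifferentiable_chart (I := 𝓘(ℝ, V)) a).comp_symm_deriv hu
  refine (inv_of_ld (ld ((chartAt V a).map_target hu))).inverse_apply_eq.mpr ?_
  exact (congrArg (fun L : V →L[ℝ] V => L y) h1).symm

theorem coef_eq (g : RMetric V M) (hx : x ∈ (chartAt V a).source) (y z : V) :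
    coefIn g a (chartAt V a x) y z = g.inner x (cf a y x) (cf a z x) := by
  have h : coefIn g a (chartAt V a x) y z = g.inner ((chartAt V a).symm (chartAt V a x))
      (cf a y ((chartAt V a).symm (chartAt V a x)))
      (cf a z ((chartAt V a).symm (chartAt V a x))) := by
    rw [cf_eq ((chartAt V a).map_source hx), cf_eq ((chartAt V a).map_source hx)]
    rfl
  rw [h, (chartAt V a).left_inv hx]

theorem d_cf (hx : x ∈ (chartAt V a).source) {f : V → ℝ} {F : M → ℝ}
    (hf : DifferentiableAt ℝ f (chartAt V a x))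
    (hF : ∀ z ∈ (chartAt V a).source, F z = f (chartAt V a z)) (y : V) :
    MDifferentiableAt 𝓘(ℝ, V) 𝓘(ℝ) F x ∧
      mvfderiv 𝓘(ℝ, V) F x (cf a y x) = fderiv ℝ f (chartAt V a x) y := by
  have h1 : F =ᶠ[𝓝 x] f ∘ chartAt V a := by
    filter_upwards [(chartAt V a).open_source.mem_nhds hx] with z hz using hF z hz
  have h2 : MDifferentiableAt 𝓘(ℝ, V) 𝓘(ℝ, V) (chartAt V a) x := (ld hx).mdifferentiableAt (by simp)
  have h3 : HasMFDerivAt 𝓘(ℝ, V) 𝓘(ℝ) F x
      ((fderiv ℝ f (chartAt V a x) : V →L[ℝ] ℝ).comp (dm V (chartAt V a) x)) :=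
    (hf.hasFDerivAt.hasMFDerivAt.comp x h2.hasMFDerivAt).congr_of_eventuallyEq h1
  refine ⟨h3.mdifferentiableAt, ?_⟩
  have h4 : mvfderiv 𝓘(ℝ, V) F x (cf a y x)
      = fderiv ℝ f (chartAt V a x) (dm V (chartAt V a) x (cf a y x)) := by
    unfold mvfderiv
    rw [h3.mfderiv]
    rfl
  rw [h4, dm_cf hx]

theorem cov_sum (D : Conn V M) {ι : Type} (s : Finset ι) (σ : ι → Fld V M)
    (h : ∀ l, Md (σ l) x) : Md (∑ l ∈ s, σ l) x ∧ D (∑ l ∈ s, σ l) x = ∑ l ∈ s, D (σ l) x := by
  classical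
  induction s using Finset.induction_on with
  | empty =>
    rw [Finset.sum_empty, Finset.sum_empty]
    exact ⟨mdifferentiableAt_zeroSection .., D.isCovariantDerivativeOnUniv.zero⟩
  | insert a s ha ih =>
    rw [Finset.sum_insert ha, Finset.sum_insert ha]
    exact ⟨mdifferentiableAt_add_section (h a) ih.1, by
      rw [D.isCovariantDerivativeOnUniv.add (h a) ih.1, ih.2]⟩

theorem cov_congr (D : Conn V M) {σ τ : Fld V M} (h : Md τ x) (hστ : ∀ᶠ y in 𝓝 x, σ y = τ y) :
    D σ x = D τ x :=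
  D.isCovariantDerivativeOnUniv.congr_of_eventuallyEq (h.congr hστ) h univ_mem hστ

theorem cov_field (D : Conn V M) (hx : x ∈ (chartAt V a).source) {c : V → V}
    (hc : DifferentiableAt ℝ c (chartAt V a x)) {W : Fld V M}
    (hW : ∀ᶠ q in 𝓝 x, W q = cf a (c (chartAt V a q)) q) (y : V) :
    D W x (cf a y x) = cf a (fderiv ℝ c (chartAt V a x) y) x + ∑ k,
      (Module.finBasis ℝ V).repr (c (chartAt V a x)) k •
        D (cf a (Module.finBasis ℝ V k)) x (cf a y x) := by
  let b := Module.finBasis ℝ V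
  let p : Fin (Module.finrank ℝ V) → V →L[ℝ] ℝ := fun k =>
    LinearMap.toContinuousLinearMap (b.coord k)
  have hp := fun k => (p k).hasFDerivAt.comp _ hc.hasFDerivAt
  have hd := fun k => d_cf hx (F := fun q => p k (c (chartAt V a q))) (f := p k ∘ c)
    (hp k).differentiableAt (fun _ _ => rfl) y
  have hs := cov_sum D Finset.univ (fun k => (fun q => p k (c (chartAt V a q))) • cf a (b k))
    fun k => (hd k).1.smul_section (sm_cf hx _).md
  have key : ∀ (q : M) (z : V), cf a z q = ∑ k, p k z • cf a (b k) q := by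
    intro q z
    conv_lhs => rw [← b.sum_repr z]
    simp only [cf_L, map_sum, map_smul]
    rfl
  have h1 : D W x = D (∑ k, (fun q => p k (c (chartAt V a q))) • cf a (b k)) x := by
    refine cov_congr D hs.1 ?_
    filter_upwards [hW] with q h1
    rw [h1, key, Finset.sum_apply]
    rfl
  rw [h1, hs.2, ContinuousLinearMap.sum_apply, key x (fderiv ℝ c _ y), ← Finset.sum_add_distrib]
  refine Finset.sum_congr rfl fun k _ => ?_
  rw [D.isCovariantDerivativeOnUniv.leibniz (sm_cf hx _).md (hd k).1, add_apply,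
    smul_apply, ContinuousLinearMap.smulRight_apply, (hd k).2, (hp k).fderiv, add_comm]
  rfl

theorem cov_field' (D : Conn V M) (hx : x ∈ (chartAt V a).source) {c : V → V}
    (hc : DifferentiableAt ℝ c (chartAt V a x)) {W : Fld V M}
    (hW : ∀ᶠ q in 𝓝 x, W q = cf a (c (chartAt V a q)) q) (y : V) :
    D W x (cf a y x) = cf a (fderiv ℝ c (chartAt V a x) y) x +
      D (cf a (c (chartAt V a x))) x (cf a y x) := by
  rw [cov_field D hx hc hW, cov_field D hx (c := fun _ => c (chartAt V a x))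
    (differentiableAt_const _) (Eventually.of_forall fun _ => rfl), fderiv_fun_const,
    Pi.zero_apply, ContinuousLinearMap.zero_apply, cf_L (0 : V), map_zero, zero_add]

variable {g : RMetric V M} {D : Conn V M} {R : Curv V M}

theorem diff_coef (g : RMetric V M) (hx : x ∈ (chartAt V a).source) (y z : V) :
    DifferentiableAt ℝ (fun p => coefIn g a p y z) (chartAt V a x) := by
  letI : RiemannianBundle (Tan V : M → Type) := ⟨g.toRiemannianMetric⟩
  have h1 : ContMDiffAt 𝓘(ℝ, V) 𝓘(ℝ) ∞ (fun q => inner ℝ (cf a y q) (cf a z q))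
      ((chartAt V a).symm (chartAt V a x)) := by
    rw [(chartAt V a).left_inv hx]
    exact ContMDiffAt.inner_bundle (F := V) (E := fun p : M => TangentSpace 𝓘(ℝ, V) p)
      (sm_cf hx y) (sm_cf hx z)
  have hu := (chartAt V a).map_source hx
  refine ((h1.comp _ (ld_symm hu).contMDiffAt).contDiffAt.differentiableAt
    (by simp)).congr_of_eventuallyEq ?_
  filter_upwards [(chartAt V a).open_target.mem_nhds hu] with p hp
  have h := coef_eq g ((chartAt V a).map_target hp) y z
  rwa [(chartAt V a).right_inv hp] at h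

theorem cov_cf (hc : IsLeviCivita g D) (hx : x ∈ (chartAt V a).source) (v w : V) :
    D (cf a w) x (cf a v x) = cf a (Gam (coefIn g a) (chartAt V a x) v w) x := by
  letI : RiemannianBundle (Tan V : M → Type) := ⟨g.toRiemannianMetric⟩
  have hd : ∀ y z t : V, dg (cf a y) (cf a z) (cf a t) x
      = fderiv ℝ (fun p => coefIn g a p z t) (chartAt V a x) y := fun y z t =>
    (d_cf hx (diff_coef g hx z t) (fun q hq => (coef_eq g hq z t).symm) y).2
  have hb : ∀ y z t : V, bg (cf a y) (cf a z) (cf a t) x = 0 := fun y z t => by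
    unfold bg
    rw [brk_cf hx, inner_zero_left]
  have hk : ∀ z, g.inner x (D (cf a w) x (cf a v x)) (cf a z x) =
      (fderiv ℝ (fun p => coefIn g a p w z) (chartAt V a x) v
        + fderiv ℝ (fun p => coefIn g a p v z) (chartAt V a x) w
        - fderiv ℝ (fun p => coefIn g a p v w) (chartAt V a x) z) / 2 := by
    intro z
    refine (koszul hc.torsion hc.metric (sm_cf hx v).md (sm_cf hx w).md (sm_cf hx z).md).trans ?_
    unfold kz
    rw [hd, hd, hd, hb, hb, hb]
    ring
  have hs := Classical.epsilon_spec (p := fun t : V => ∀ z : V, coefIn g a (chartAt V a x) t z =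
      (fderiv ℝ (fun p => coefIn g a p w z) (chartAt V a x) v
        + fderiv ℝ (fun p => coefIn g a p v z) (chartAt V a x) w
        - fderiv ℝ (fun p => coefIn g a p v w) (chartAt V a x) z) / 2)
    (by
      obtain ⟨y, hy⟩ := cf_surj hx (D (cf a w) x (cf a v x))
      exact ⟨y, fun z => by rw [coef_eq g hx, hy, hk]⟩)
  refine ext_inner_right ℝ fun t => ?_
  obtain ⟨t, rfl⟩ := cf_surj hx t
  exact (hk _).trans ((hs _).symm.trans (coef_eq g hx _ _))

variable [T2Space M]

theorem diff_gam (hc : IsLeviCivita g D) (hx : x ∈ (chartAt V a).source) (v w : V) :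
    (∃ X : Vec V M, ∀ᶠ q in 𝓝 x, X q = cf a v q) ∧ (∀ X Y : Vec V M,
      (∀ᶠ q in 𝓝 x, X q = cf a v q) → (∀ᶠ q in 𝓝 x, Y q = cf a w q) →
      ∀ᶠ q in 𝓝 x, nab D X Y q = cf a (Gam (coefIn g a) (chartAt V a q) v w) q) ∧
    DifferentiableAt ℝ (fun p => Gam (coefIn g a) p v w) (chartAt V a x) := by
  have hU := (chartAt V a).open_source.mem_nhds hx
  have h1 : ∀ y : V, ∃ X : Vec V M, ∀ᶠ q in 𝓝 x, X q = cf a y q := fun y =>
    cut_section (E := V) hU (σ := cf a y) fun q hq => (sm_cf hq y).contMDiffWithinAt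
  have h2 : ∀ X Y : Vec V M, (∀ᶠ q in 𝓝 x, X q = cf a v q) → (∀ᶠ q in 𝓝 x, Y q = cf a w q) →
      ∀ᶠ q in 𝓝 x, nab D X Y q = cf a (Gam (coefIn g a) (chartAt V a q) v w) q := by
    intro X Y hX hY
    filter_upwards [hX, hY.eventually_nhds, hU] with q e1 e2 e3
    unfold nab
    rw [e1, cov_congr D (sm_cf e3 w).md e2, cov_cf hc e3]
  refine ⟨h1 v, h2, ?_⟩
  obtain ⟨X, hX⟩ := h1 v
  obtain ⟨Y, hY⟩ := h1 w
  have hu := (chartAt V a).map_source hx
  have h3 : Sm (pull (chartAt V a).symm (nabVF D hc.smooth X Y)) (chartAt V a x) :=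
    Sm.pull (ld_symm hu) ((nabVF D hc.smooth X Y).contMDiff _)
  refine (((contMDiffAt_vectorSpace_iff_contDiffAt (V := pull (chartAt V a).symm
    (nabVF D hc.smooth X Y))).mp h3).differentiableAt (by simp)).congr_of_eventuallyEq ?_
  have h4 := (chartAt V a).continuousAt_symm hu
  rw [ContinuousAt, (chartAt V a).left_inv hx] at h4
  filter_upwards [h4.eventually (h2 X Y hX hY), (chartAt V a).open_target.mem_nhds hu] with p e1 e2
  rw [(chartAt V a).right_inv e2, cf_eq e2] at e1
  exact ((inv_of_ld (ld_symm e2)).inverse_apply_eq.mpr e1).symm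

theorem riem_cf (h : IsRiem g R) (hx : x ∈ (chartAt V a).source) (v w z : V) :
    R x (cf a v x) (cf a w x) (cf a z x) = cf a (Riem (coefIn g a) (chartAt V a x) v w z) x := by
  obtain ⟨D, hc, hR⟩ := h
  obtain ⟨X, hX⟩ := (diff_gam hc hx v v).1
  obtain ⟨Y, hY⟩ := (diff_gam hc hx w w).1
  obtain ⟨Z, hZ⟩ := (diff_gam hc hx z z).1
  have h := hR X Y Z x
  have h1 := cov_field' D hx (diff_gam hc hx w z).2.2 ((diff_gam hc hx w z).2.1 Y Z hY hZ) v
  have h2 := cov_field' D hx (diff_gam hc hx v z).2.2 ((diff_gam hc hx v z).2.1 X Z hX hZ) w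
  rw [cov_cf hc hx] at h1 h2
  have h3 : nab D (mlieBracket 𝓘(ℝ, V) X Y) Z x = 0 := by
    unfold nab
    rw [Filter.EventuallyEq.mlieBracket_vectorField_eq hX hY, brk_cf hx, map_zero]
  have h4 : nab D X (nab D Y Z) x = D (nab D Y Z) x (cf a v x) := by
    rw [← hX.self_of_nhds]; rfl
  have h5 : nab D Y (nab D X Z) x = D (nab D X Z) x (cf a w x) := by
    rw [← hY.self_of_nhds]; rfl
  rw [h3, h4, h5, h1, h2, hX.self_of_nhds, hY.self_of_nhds, hZ.self_of_nhds] at h
  rw [h]
  simp only [Riem, cf_L, map_add, map_sub]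
  abel

end

end Vale.Agent.P219I
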