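import Vale.Agent.P219I78.Chart

/-! Existence and uniqueness; curvature bounds in charts and on tangent planes. -/

set_option maxSynthPendingDepth 3
set_option linter.unusedSectionVars false

namespace Vale.Agent.P219I

open scoped Manifold ContDiff Topology
open Bundle Filter VectorField Vale.Agent.P211 Vale.Agent.P211Z
open Vale.Agent.P255 (RMetric innerAt coefIn Gam Riem)
open Vale.Agent.P219.Mfd (SecLE)

noncomputable section

variable {V : Type} [NormedAddCommGroup V] [NormedSpace ℝ V] [FiniteDimensional ℝ V]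
  {M : Type} [TopologicalSpace M] [ChartedSpace V M] [IsManifold 𝓘(ℝ, V) ∞ M] [T2Space M]

section

variable [RiemannianBundle fun p : M => TangentSpace 𝓘(ℝ, V) p]
  [IsContMDiffRiemannianBundle 𝓘(ℝ, V) ∞ V fun p : M => TangentSpace 𝓘(ℝ, V) p]

theorem tens {Ψ : VF V M → VF V M} (ha : ∀ X Y, Ψ (X + Y) = Ψ X + Ψ Y)
    (hs : ∀ (a : SF V M) X, Ψ (a • X) = a • Ψ X) {x : M} {X Y : VF V M}
    (h : X x = Y x) : Ψ X x = Ψ Y x := by
  refine ext_inner_right ℝ fun w => ?_
  obtain ⟨W, rfl⟩ := exists_ext (E := V) x w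
  let Φ : VF V M →ₗ[SF V M] SF V M :=
    { toFun := fun X => gVF (Ψ X) W
      map_add' := fun X Y => by
        rw [ha]
        ext y
        exact inner_add_left (𝕜 := ℝ) (Ψ X y) (Ψ Y y) (W y)
      map_smul' := fun a X => by
        rw [hs]
        ext y
        exact real_inner_smul_left (Ψ X y) (W y) (a y) }
  have h1 := lin_ptwise Φ (Z := X - Y) (x := x) (sub_eq_zero.mpr h)
  rw [map_sub] at h1
  exact sub_eq_zero.mp h1

theorem R_eq {D : Conn V M} (hD : IsLC D) (X Y Z : VF V M) (x : M) :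
    nab D X (nab D Y Z) x - nab D Y (nab D X Z) x - nab D (mlieBracket 𝓘(ℝ, V) X Y) Z x
      = (lcOf hD).R X Y Z x := by
  rw [← brk_coe hD X Y]
  rfl

theorem exists_curv {D : Conn V M} (hD : IsLC D) : ∃ R, IsCurv D R := by
  choose s hs using fun x : M => exists_ext (E := V) x
  refine ⟨fun x u v w => (lcOf hD).R (s x u) (s x v) (s x w) x, fun X Y Z x => ?_⟩
  rw [R_eq hD]
  generalize lcOf hD = G
  exact (tens (Ψ := fun X => G.R X _ _) (fun _ _ => G.R_add1 ..) (fun _ _ => G.R_smul1 ..)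
    (hs x _)).trans ((tens (Ψ := fun Y => G.R X Y _) (fun _ _ => G.R_add2 ..)
    (fun _ _ => G.R_smul2 ..) (hs x _)).trans (tens (Ψ := fun Z => G.R X Y Z)
    (fun _ _ => G.R_add3 ..) (fun _ _ => G.R_smul3 ..) (hs x _)))

theorem curv_dep {D : Conn V M} (hD : IsLC D) {R : Curv V M} (hR : IsCurv D R) (x : M)
    (v w : Tan V x) : R x v 0 0 = 0 ∧ ∀ c : ℝ, R x (c • w) w w = 0 := by
  obtain ⟨X, rfl⟩ := exists_ext (E := V) x v
  obtain ⟨Y, rfl⟩ := exists_ext (E := V) x w
  have hR' := fun X Y Z => (hR X Y Z x).trans (R_eq hD X Y Z x)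
  generalize lcOf hD = G at hR'
  refine ⟨(hR' X 0 0).trans ?_, fun c => (hR' ((ContMDiffMap.const c : SF V M) • Y) Y Y).trans ?_⟩
  · have h := G.R_smul3 0 X 0 0
    rw [zero_smul, zero_smul] at h
    rw [h]
    rfl
  · have h : G.R Y Y Y = 0 := by
      have h1 := G.R_smul1 0 Y Y Y
      rw [zero_smul, zero_smul] at h1
      unfold LC.R LC.brk at h1 ⊢
      rw [sub_self, sub_self, zero_sub, neg_eq_zero]
      have h2 := G.nab_smul_left 0 Y Y
      rwa [zero_smul, zero_smul] at h2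
    rw [G.R_smul1, h, smul_zero]
    rfl

end

variable {g : RMetric V M} {D D' : Conn V M} {R R' : Curv V M}

theorem IsLeviCivita.lc (h : IsLeviCivita g D) :
    letI : RiemannianBundle (Tan V : M → Type) := ⟨g.toRiemannianMetric⟩
    IsLC D :=
  letI : RiemannianBundle (Tan V : M → Type) := ⟨g.toRiemannianMetric⟩
  ⟨h.smooth, fun X Y x => (CovariantDerivative.torsion_eq_zero_iff D).1 h.torsion
      (VF.mdiff X x) (VF.mdiff Y x),
    fun X Y Z x => h.metric.mvfderiv_inner_eq X (VF.mdiff Y x) (VF.mdiff Z x)⟩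

theorem exists_lc (g : RMetric V M) : ∃ D, IsLeviCivita g D := by
  letI : RiemannianBundle (Tan V : M → Type) := ⟨g.toRiemannianMetric⟩
  obtain ⟨D, hD⟩ := P211W.exists_lc (E := V) (M := M)
  exact ⟨D, hD.smooth, hD.torsion, hD.metric⟩

theorem lc_uniq (h : IsLeviCivita g D) (h' : IsLeviCivita g D') (Y : Vec V M) : D' Y = D Y := by
  letI : RiemannianBundle (Tan V : M → Type) := ⟨g.toRiemannianMetric⟩
  exact funext fun x => P211W.lc_unique ⟨h'.smooth, h'.torsion, h'.metric⟩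
    ⟨h.smooth, h.torsion, h.metric⟩ (VF.mdiff Y x)

theorem exu_riem (g : RMetric V M) : ∃! R, IsRiem g R := by
  letI : RiemannianBundle (Tan V : M → Type) := ⟨g.toRiemannianMetric⟩
  obtain ⟨D, hD⟩ := exists_lc g
  obtain ⟨R, hR⟩ := exists_curv hD.lc
  refine ⟨R, ⟨D, hD, hR⟩, fun R' h => ?_⟩
  funext x u v w
  have hx := mem_chart_source V x
  obtain ⟨u, rfl⟩ := cf_surj hx u
  obtain ⟨v, rfl⟩ := cf_surj hx v
  obtain ⟨w, rfl⟩ := cf_surj hx w
  rw [riem_cf h hx, riem_cf ⟨D, hD, hR⟩ hx]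

theorem den_pos (g : RMetric V M) {p : M} {v w : Tan V p} (h : LinearIndependent ℝ ![v, w]) :
    0 < g.inner p v v * g.inner p w w - g.inner p v w ^ 2 := by
  rw [linearIndependent_fin2] at h
  obtain ⟨hw, h2⟩ : w ≠ 0 ∧ ∀ a : ℝ, a • w ≠ v := h
  have h3 := g.pos p w hw
  have h4 := g.pos p (v - (g.inner p v w / g.inner p w w) • w) (sub_ne_zero.2 (h2 _).symm)
  simp only [map_sub, map_smul, sub_apply, smul_apply, smul_eq_mul] at h4
  rw [g.symm p w v] at h4
  have h5 := mul_pos h4 h3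
  field_simp at h5
  nlinarith [h5]

theorem dep_zero (h : IsRiem g R) {p : M} {v w : Tan V p} (hl : ¬ LinearIndependent ℝ ![v, w]) :
    g.inner p (R p v w w) v = 0 ∧ g.inner p v v * g.inner p w w - g.inner p v w ^ 2 = 0 := by
  letI : RiemannianBundle (Tan V : M → Type) := ⟨g.toRiemannianMetric⟩
  obtain ⟨D, hD, hR⟩ := h
  have h := curv_dep hD.lc hR p v w
  rw [linearIndependent_fin2] at hl
  have hl' : w = 0 ∨ ∃ c : ℝ, c • w = v := by
    by_contra hcon
    rw [not_or, not_exists] at hcon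
    exact hl hcon
  rcases hl' with rfl | ⟨c, rfl⟩
  · rw [h.1]
    simp
  · rw [h.2]
    simp only [map_zero, ContinuousLinearMap.zero_apply, map_smul, smul_apply, smul_eq_mul]
    exact ⟨by ring, by ring⟩

/-- a condition `P (numerator) (denominator)` in charts and on planes -/
theorem secIn_iff {S : Set ℝ} {P : ℝ → ℝ → Prop} (h0 : P 0 0)
    (hP : ∀ s t : ℝ, 0 < t → (s / t ∈ S ↔ P s t)) :
    SecIn g S ↔ ∀ a : M, ∀ u ∈ (chartAt V a).target, ∀ v w : V,
      P (coefIn g a u (Riem (coefIn g a) u v w w) v)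
        (coefIn g a u v v * coefIn g a u w w - coefIn g a u v w ^ 2) := by
  constructor
  · rintro ⟨R, hR, h⟩ a u hu v w
    obtain ⟨x, hx, rfl⟩ : ∃ x ∈ (chartAt V a).source, chartAt V a x = u :=
      ⟨_, (chartAt V a).map_target hu, (chartAt V a).right_inv hu⟩
    simp only [coef_eq g hx]
    rw [← riem_cf hR hx]
    by_cases hl : LinearIndependent ℝ ![cf a v x, cf a w x]
    · exact (hP _ _ (den_pos g hl)).1 (h x _ _ hl)
    · rw [(dep_zero hR hl).1, (dep_zero hR hl).2]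
      exact h0
  · intro h
    obtain ⟨R, hR, -⟩ := exu_riem g
    refine ⟨R, hR, fun x v w hl => ?_⟩
    have hx := mem_chart_source V x
    obtain ⟨v, rfl⟩ := cf_surj hx v
    obtain ⟨w, rfl⟩ := cf_surj hx w
    have h1 := h x _ ((chartAt V x).map_source hx) v w
    simp only [coef_eq g hx] at h1
    rw [← riem_cf hR hx] at h1
    exact (hP _ _ (den_pos g hl)).2 h1

theorem secLE_iff {K : ℝ} : SecIn g (Set.Iic K) ↔ SecLE g K :=
  secIn_iff (P := fun s t => s ≤ K * t) (by simp) fun _ _ ht => div_le_iff₀ ht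

theorem secEq_iff {n : ℕ} {N : Type} [TopologicalSpace N] [ChartedSpace (P219.Co.E n) N]
    [IsManifold 𝓘(ℝ, P219.Co.E n) ∞ N] [T2Space N] {h : RMetric (P219.Co.E n) N} {K : ℝ} :
    SecIn h {K} ↔ P219W.SecEq h K :=
  secIn_iff (P := fun s t => s = K * t) (by simp) fun _ _ ht => div_eq_iff ht.ne'

end

end Vale.Agent.P219I
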